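import Mathlib

/-!
Sums of at most `K` unit fractions, and removal of repeated denominators.
-/

namespace Vale.Agent.P012

open Finset

/-- `r` is a sum of at most `K` unit fractions (repetitions allowed). -/
def Rep : ℕ → ℚ → Prop
  | 0, r => r = 0
  | K + 1, r => Rep K r ∨ ∃ n : ℕ, 0 < n ∧ Rep K (r - 1 / n)

theorem Rep.succ {K : ℕ} {r : ℚ} (h : Rep K r) : Rep (K + 1) r := Or.inl h

theorem Rep.mono {K K' : ℕ} {r : ℚ} (h : Rep K r) (hK : K ≤ K') : Rep K' r := by
  induction K', hK using Nat.le_induction with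
  | base => exact h
  | succ n _ ih => exact ih.succ

theorem Rep.zero (K : ℕ) : Rep K 0 := Rep.mono (K := 0) rfl (Nat.zero_le K)

theorem Rep.add_unit {K : ℕ} {r : ℚ} (h : Rep K r) {n : ℕ} (hn : 0 < n) :
    Rep (K + 1) (r + 1 / n) := Or.inr ⟨n, hn, by simpa using h⟩

theorem Rep.add {K K' : ℕ} {r r' : ℚ} (h : Rep K r) (h' : Rep K' r') : Rep (K + K') (r + r') := by
  induction K' generalizing r' with
  | zero =>
    have : r' = 0 := h'
    simpa [this] using h
  | succ K' ih =>
    rcases h' with h' | ⟨n, hn, h'⟩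
    · exact (ih h').succ
    · have := (ih h').add_unit hn
      have e : r + (r' - 1 / n) + 1 / n = r + r' := by ring
      rwa [e] at this

theorem Rep.div {K : ℕ} {r : ℚ} (h : Rep K r) {m : ℕ} (hm : 0 < m) : Rep K (r / m) := by
  induction K generalizing r with
  | zero =>
    have : r = 0 := h
    simpa [this] using Rep.zero 0
  | succ K ih =>
    rcases h with h | ⟨n, hn, h⟩
    · exact (ih h).succ
    · have := (ih h).add_unit (Nat.mul_pos hn hm)
      have e : (r - 1 / n) / m + 1 / ((n * m : ℕ) : ℚ) = r / m := by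
        push_cast
        have : (n : ℚ) ≠ 0 := by positivity
        have : (m : ℚ) ≠ 0 := by positivity
        field_simp
        ring
      rwa [e] at this

theorem Rep.of_dvd {d M : ℕ} (hM : 0 < M) (h : d ∣ M) : Rep 1 ((d : ℚ) / M) := by
  obtain ⟨c, rfl⟩ := h
  have hd : 0 < d := Nat.pos_of_ne_zero fun e => by simp [e] at hM
  have hc : 0 < c := Nat.pos_of_ne_zero fun e => by simp [e] at hM
  have := (Rep.zero 0).add_unit hc
  have e : (0 : ℚ) + 1 / c = (d : ℚ) / ((d * c : ℕ) : ℚ) := by
    push_cast
    have : (d : ℚ) ≠ 0 := by positivity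
    field_simp
    ring
  rwa [e] at this

theorem Rep.of_finset (S : Finset ℕ) (hS : ∀ n ∈ S, 0 < n) :
    Rep S.card (∑ n ∈ S, (1 : ℚ) / n) := by
  induction S using Finset.induction_on with
  | empty => simpa using Rep.zero 0
  | insert n S hn ih =>
    rw [Finset.card_insert_of_notMem hn, Finset.sum_insert hn, add_comm ((1 : ℚ) / n)]
    exact (ih fun m hm => hS m (mem_insert_of_mem hm)).add_unit (hS n (mem_insert_self _ _))

theorem Rep.distinct {K : ℕ} : ∀ {r : ℚ}, r < 1 → Rep K r →
    ∃ S : Finset ℕ, S.card ≤ K ∧ (∀ n ∈ S, 0 < n) ∧ ∑ n ∈ S, (1 : ℚ) / n = r := by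
  induction K with
  | zero =>
    intro r _ h
    have : r = 0 := h
    exact ⟨∅, le_rfl, by simp, by simp [this]⟩
  | succ K ih =>
    intro r hr h
    rcases h with h | ⟨n, hn, h⟩
    · obtain ⟨S, h1, h2, h3⟩ := ih hr h
      exact ⟨S, h1.trans (Nat.le_succ K), h2, h3⟩
    induction n using Nat.strong_induction_on with
    | _ n ihn =>
      have hnq : (0 : ℚ) < n := by exact_mod_cast hn
      have hpos : (0 : ℚ) < 1 / n := by positivity
      obtain ⟨S, h1, h2, h3⟩ := ih (by linarith) h
      by_cases hnS : n ∈ S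
      · have h4 := Finset.add_sum_erase S (fun n => (1 : ℚ) / n) hnS
        have h5 := Rep.of_finset (S.erase n) fun m hm => h2 m (mem_of_mem_erase hm)
        have h6 : (S.erase n).card + 1 ≤ K := by rw [Finset.card_erase_add_one hnS]; exact h1
        have h7 : 0 ≤ ∑ m ∈ S.erase n, (1 : ℚ) / m := Finset.sum_nonneg fun m _ => by positivity
        have hn2 : 2 ≤ n := by
          by_contra hlt
          have : n = 1 := by omega
          subst this
          norm_num at h3 h4 h7
          linarith
        rcases Nat.even_or_odd' n with ⟨u, hu | hu⟩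
        · refine ihn u (by omega) (by omega) ?_
          have e : r - 1 / u = ∑ m ∈ S.erase n, (1 : ℚ) / m := by
            have : (1 : ℚ) / u = 1 / n + 1 / n := by
              rw [hu]; push_cast
              have : (u : ℚ) ≠ 0 := by exact_mod_cast (by omega : u ≠ 0)
              field_simp; norm_num
            linarith
          rw [e]
          exact h5.mono (by omega)
        · refine ihn (u + 1) (by omega) (by omega) ?_
          have e : r - 1 / ((u + 1 : ℕ) : ℚ) =
              ∑ m ∈ S.erase n, (1 : ℚ) / m + 1 / (((u + 1) * n : ℕ) : ℚ) := by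
            have : (1 : ℚ) / ((u + 1 : ℕ) : ℚ) + 1 / (((u + 1) * n : ℕ) : ℚ) = 1 / n + 1 / n := by
              rw [hu]; push_cast
              field_simp; ring
            linarith
          rw [e]
          exact (h5.add_unit (by positivity)).mono h6
      · refine ⟨insert n S, by rw [Finset.card_insert_of_notMem hnS]; omega, ?_, ?_⟩
        · intro m hm
          rcases mem_insert.1 hm with rfl | hm
          · exact hn
          · exact h2 m hm
        · rw [Finset.sum_insert hnS, h3]; ring

theorem Rep.distinct' {K : ℕ} {r : ℚ} (hr : r < 1) (h : Rep K r) :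
    ∃ S : Finset ℕ, S.card ≤ K ∧ (∀ n ∈ S, 2 ≤ n) ∧ ∑ n ∈ S, (1 : ℚ) / n = r := by
  obtain ⟨S, h1, h2, h3⟩ := h.distinct hr
  refine ⟨S, h1, fun n hn => ?_, h3⟩
  by_contra hlt
  have e : n = 1 := by have := h2 n hn; omega
  subst e
  have := Finset.single_le_sum (f := fun n : ℕ => (1 : ℚ) / n) (fun m _ => by positivity) hn
  norm_num at this h3
  linarith

end Vale.Agent.P012
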