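import Mathlib
import Vale.Agent.P012.Rep

/-!
Large sets of short sums of divisors of a smooth number.
-/

namespace Vale.Agent.P012

open Finset Function

theorem primorial_lower : ∃ n0 : ℕ, ∀ n ≥ n0, 2 ^ n ≤ primorial n ^ 2 := by
  obtain ⟨C, hC⟩ := Chebyshev.psi_sub_theta_le_mul_sqrt
  have hl : 0 < Real.log 2 := Real.log_pos (by norm_num)
  obtain ⟨s, hs⟩ := exists_nat_ge (2 * (|C| + 4) / Real.log 2)
  refine ⟨s ^ 2 + 1, fun n hn => ?_⟩
  have hn1 : (1 : ℝ) ≤ n := by exact_mod_cast (by omega : 1 ≤ n)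
  have h1 := Chebyshev.psi_ge n
  have h2 := hC n
  rw [Chebyshev.theta_eq_log_primorial, Nat.floor_natCast] at h2
  have h3 : (s : ℝ) ≤ √n := Real.le_sqrt_of_sq_le (by exact_mod_cast (by omega : s ^ 2 ≤ n))
  have h4 : √n * √n = (n : ℝ) := Real.mul_self_sqrt (by linarith)
  have h5 : 1 ≤ √(n : ℝ) := Real.one_le_sqrt.2 hn1
  have h6 : Real.log (n + 1) ≤ 4 * √n := by
    have e1 : Real.log (n + 1) ≤ Real.log ((2 * √n) ^ 2) :=
      Real.log_le_log (by linarith) (by nlinarith)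
    rw [Real.log_pow] at e1
    have e2 := Real.log_le_sub_one_of_pos (show 0 < 2 * √(n : ℝ) by linarith)
    push_cast at e1
    linarith
  rw [div_le_iff₀ hl] at hs
  have h7 : C * √n ≤ |C| * √n := mul_le_mul_of_nonneg_right (le_abs_self C) (by linarith)
  have h8 : 2 * (|C| + 4) * √n ≤ n * Real.log 2 := by
    calc 2 * (|C| + 4) * √n ≤ s * Real.log 2 * √n := by gcongr
      _ ≤ √n * Real.log 2 * √n := by gcongr
      _ = _ := by rw [mul_right_comm, h4]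
  have h9 : Real.log ((2 : ℝ) ^ n) ≤ Real.log ((primorial n : ℝ) ^ 2) := by
    rw [Real.log_pow, Real.log_pow]; push_cast; linarith
  have h10 : (0 : ℝ) < primorial n := by exact_mod_cast primorial_pos n
  rw [Real.log_le_log_iff (by positivity) (by positivity)] at h9
  exact_mod_cast h9

theorem prod_filter_dvd_le (A : Finset ℕ) (hA : ∀ p ∈ A, p.Prime) {n : ℕ} (hn : 0 < n) :
    ∏ p ∈ A.filter (· ∣ n), p ≤ n :=
  Nat.le_of_dvd hn (Finset.prod_primes_dvd n (fun p hp => (hA p (mem_filter.1 hp).1).prime)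
    fun _ hp => (mem_filter.1 hp).2)

/-- primes up to `n` not dividing `B` -/
def Av (B n : ℕ) : Finset ℕ := (Nat.primesLE n).filter fun p => ¬ p ∣ B

theorem mem_Av {B n p : ℕ} : p ∈ Av B n ↔ p.Prime ∧ p ≤ n ∧ ¬ p ∣ B := by
  simp only [Av, mem_filter, Nat.mem_primesLE]; tauto

theorem two_pow_le_Av {B n : ℕ} (hB : 0 < B) (h : 2 ^ n ≤ primorial n ^ 2) :
    2 ^ n ≤ B ^ 2 * (∏ p ∈ Av B n, p) ^ 2 := by
  refine h.trans ?_
  rw [← mul_pow]
  refine Nat.pow_le_pow_left ?_ 2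
  have e : primorial n = ∏ p ∈ Nat.primesLE n, p := rfl
  rw [e, ← Finset.prod_filter_mul_prod_filter_not (Nat.primesLE n) (· ∣ B)]
  exact Nat.mul_le_mul_right _
    (prod_filter_dvd_le _ (fun p hp => Nat.prime_of_mem_primesLE hp) hB)

theorem exists_R {B Y ω : ℕ} (hB : 0 < B) (hY : 1 ≤ Y) (h : 2 ^ Y ≤ primorial Y ^ 2)
    (h2 : B ^ 2 * (Y ^ ω) ^ 2 < 2 ^ Y) :
    ∃ R : ℕ, ∃ S : Finset ℕ, 0 < R ∧ R ≤ Y ^ ω ∧ Nat.Coprime R B ∧ S.card = 2 ^ ω ∧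
      ∀ d ∈ S, d ∣ R := by
  have h1 : ω ≤ (Av B Y).card := by
    by_contra hlt
    have h3 := two_pow_le_Av hB h
    have h4 : ∏ p ∈ Av B Y, p ≤ Y ^ ω :=
      (Finset.prod_le_pow_card _ _ _ fun p hp => (mem_Av.1 hp).2.1).trans
        (Nat.pow_le_pow_right hY (by omega))
    have h5 := Nat.mul_le_mul_left (B ^ 2) (Nat.pow_le_pow_left h4 2)
    omega
  obtain ⟨P, hP, hPc⟩ := Finset.exists_subset_card_eq h1
  refine ⟨∏ p ∈ P, p, P.powerset.image fun T => ∏ p ∈ T, p,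
    Finset.prod_pos fun p hp => (mem_Av.1 (hP hp)).1.pos, ?_, ?_, ?_, ?_⟩
  · rw [← hPc]; exact Finset.prod_le_pow_card _ _ _ fun p hp => (mem_Av.1 (hP hp)).2.1
  · exact Nat.Coprime.prod_left fun p hp =>
      (mem_Av.1 (hP hp)).1.coprime_iff_not_dvd.2 (mem_Av.1 (hP hp)).2.2
  · rw [Finset.card_image_of_injOn, card_powerset, hPc]
    intro T hT T' hT' e
    have a1 := Nat.primeFactors_prod fun p (hp : p ∈ T) =>
      (mem_Av.1 (hP (mem_powerset.1 hT hp))).1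
    have a2 := Nat.primeFactors_prod fun p (hp : p ∈ T') =>
      (mem_Av.1 (hP (mem_powerset.1 hT' hp))).1
    simp only at e
    rw [← a1, e, a2]
  · intro d hd
    obtain ⟨T, hT, rfl⟩ := mem_image.1 hd
    exact Finset.prod_dvd_prod_of_subset _ _ _ (mem_powerset.1 hT)

theorem exists_mu {B Z R : ℕ} (S : Finset ℕ) (hB : 0 < B) (hR : 1 ≤ R) (hS : ∀ d ∈ S, d ≤ R)
    (hS0 : 0 < S.card) (h : 2 ^ Z ≤ primorial Z ^ 2) (h2 : B ^ 2 * R ^ (4 * S.card) < 2 ^ Z) :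
    ∃ μ : ℕ, μ.Prime ∧ μ ≤ Z ∧ ¬ μ ∣ B ∧ ∃ E ⊆ S, S.card ≤ 2 * E.card ∧
      Set.InjOn (· % μ) (E : Set ℕ) := by
  obtain ⟨n, hn⟩ : ∃ n : ℕ → ℕ, ∀ d, n d = ∏ d' ∈ S.erase d, Nat.dist d d' := ⟨_, fun _ => rfl⟩
  have hn0 : ∀ d, 0 < n d := fun d => by
    rw [hn]
    exact Finset.prod_pos fun d' hd' => Nat.dist_pos_of_ne (Finset.ne_of_mem_erase hd').symm
  have hn1 : ∀ d ∈ S, n d ≤ R ^ S.card := fun d hd => by
    rw [hn]
    refine (Finset.prod_le_pow_card _ _ R fun d' hd' => ?_).trans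
      (Nat.pow_le_pow_right hR card_erase_le)
    have := hS d hd
    have := hS d' (mem_of_mem_erase hd')
    unfold Nat.dist
    omega
  suffices ∃ μ ∈ Av B Z, S.card ≤ 2 * (S.filter fun d => ¬ μ ∣ n d).card by
    obtain ⟨μ, hμ, hc⟩ := this
    obtain ⟨a1, a2, a3⟩ := mem_Av.1 hμ
    refine ⟨μ, a1, a2, a3, _, Finset.filter_subset _ _, hc, fun d hd d' hd' e => ?_⟩
    by_contra hne
    have hd1 := mem_filter.1 (mem_coe.1 hd)
    have hd2 := mem_filter.1 (mem_coe.1 hd')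
    refine hd1.2 ?_
    rw [hn]
    refine Dvd.dvd.trans ?_ (Finset.dvd_prod_of_mem _ (mem_erase.2 ⟨Ne.symm hne, hd2.1⟩))
    have e' : d ≡ d' [MOD μ] := e
    exact Nat.dvd_add e'.symm.dvd' e'.dvd'
  by_contra hcon
  push Not at hcon
  have h3 : (∏ p ∈ Av B Z, p) ^ S.card ≤ (R ^ (2 * S.card)) ^ S.card := by
    calc (∏ p ∈ Av B Z, p) ^ S.card = ∏ p ∈ Av B Z, p ^ S.card := (Finset.prod_pow _ _ _).symm
      _ ≤ ∏ p ∈ Av B Z, (∏ d ∈ S, if p ∣ n d then p else 1) ^ 2 := by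
        refine Finset.prod_le_prod' fun p hp => ?_
        rw [← Finset.prod_filter, Finset.prod_const, ← pow_mul]
        refine Nat.pow_le_pow_right (mem_Av.1 hp).1.pos ?_
        have := hcon p hp
        have := Finset.card_filter_add_card_filter_not (s := S) (fun d => p ∣ n d)
        omega
      _ = ∏ d ∈ S, (∏ p ∈ (Av B Z).filter (· ∣ n d), p) ^ 2 := by
        rw [Finset.prod_pow, Finset.prod_pow, Finset.prod_comm]
        simp only [Finset.prod_filter]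
      _ ≤ _ := by
        refine Finset.prod_le_pow_card _ _ _ fun d hd => ?_
        rw [mul_comm 2, pow_mul]
        exact Nat.pow_le_pow_left
          ((prod_filter_dvd_le _ (fun p hp => (mem_Av.1 hp).1) (hn0 d)).trans (hn1 d hd)) 2
  have h4 := (Nat.pow_le_pow_iff_left hS0.ne').1 h3
  have h5 := (two_pow_le_Av hB h).trans (Nat.mul_le_mul_left _ (Nat.pow_le_pow_left h4 2))
  rw [← pow_mul, show 2 * S.card * 2 = 4 * S.card by ring] at h5
  omega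

/-- digit concatenation -/
def comb (S : Finset ℕ) (N : ℕ) (S' : Finset ℕ) : Finset ℕ :=
  (S ×ˢ S').image fun p => p.1 + N * p.2

theorem mem_comb {S S' : Finset ℕ} {N w : ℕ} :
    w ∈ comb S N S' ↔ ∃ s ∈ S, ∃ s' ∈ S', s + N * s' = w := by
  simp only [comb, mem_image, mem_product, Prod.exists]
  constructor
  · rintro ⟨a, b, ⟨h1, h2⟩, h3⟩; exact ⟨a, h1, b, h2, h3⟩
  · rintro ⟨a, h1, b, h2, h3⟩; exact ⟨a, b, ⟨h1, h2⟩, h3⟩

theorem card_comb {S S' : Finset ℕ} {N : ℕ} (hN : 0 < N) (h : Set.InjOn (· % N) (S : Set ℕ)) :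
    (comb S N S').card = S.card * S'.card := by
  rw [comb, Finset.card_image_of_injOn, card_product]
  rintro ⟨a, b⟩ hp ⟨a', b'⟩ hp' e
  simp only [coe_product, Set.mem_prod, mem_coe] at hp hp' e
  have e1 : a = a' := h hp.1 hp'.1 (by
    have := congrArg (· % N) e
    simpa using this)
  subst e1
  have e2 : b = b' := Nat.eq_of_mul_eq_mul_left hN (by omega)
  rw [e2]

theorem card_comb' {S S' : Finset ℕ} {N : ℕ} (hN : 0 < N) (h : ∀ s ∈ S, s < N) :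
    (comb S N S').card = S.card * S'.card :=
  card_comb hN fun a ha b hb e => by
    simpa only [Nat.mod_eq_of_lt (h a ha), Nat.mod_eq_of_lt (h b hb)] using e

theorem exists_W0 {R μ : ℕ} (E : Finset ℕ) (hR : 0 < R) (hμ : 2 ≤ μ) (hE : ∀ e ∈ E, e ∣ R)
    (hinj : Set.InjOn (· % μ) (E : Set ℕ)) (k : ℕ) :
    ∃ W : Finset ℕ, W.card = E.card ^ k ∧
      ∀ w ∈ W, k ≤ w ∧ w + R ≤ R * μ ^ k ∧ Rep k ((w : ℚ) / (R * μ ^ k : ℕ)) := by
  induction k with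
  | zero => exact ⟨{0}, by simp, by simp [Rep]⟩
  | succ k ih =>
    obtain ⟨W, h1, h2⟩ := ih
    refine ⟨comb E μ W, by rw [card_comb (by omega) hinj, h1, pow_succ'], fun w hw => ?_⟩
    obtain ⟨e, he, w', hw', rfl⟩ := mem_comb.1 hw
    obtain ⟨a1, a2, a3⟩ := h2 w' hw'
    have b1 : 0 < e := Nat.pos_of_dvd_of_pos (hE e he) hR
    have b2 : e ≤ R := Nat.le_of_dvd hR (hE e he)
    refine ⟨by nlinarith, ?_, ?_⟩
    · have := Nat.mul_le_mul_left μ a2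
      rw [pow_succ]
      nlinarith
    · have b3 := a3.add (Rep.of_dvd (M := R * μ ^ (k + 1)) (by positivity)
        ((hE e he).mul_right _))
      have e1 : (w' : ℚ) / (R * μ ^ k : ℕ) + e / (R * μ ^ (k + 1) : ℕ) =
          ((e + μ * w' : ℕ) : ℚ) / (R * μ ^ (k + 1) : ℕ) := by
        push_cast
        have : (R : ℚ) ≠ 0 := by positivity
        have : (μ : ℚ) ≠ 0 := by positivity
        field_simp
        ring
      rwa [e1] at b3

theorem digits {B Y Z ω : ℕ} (k : ℕ) (hB : 0 < B) (hY : 1 ≤ Y) (hY2 : 2 ^ Y ≤ primorial Y ^ 2)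
    (hZ2 : 2 ^ Z ≤ primorial Z ^ 2) (h1 : B ^ 2 * (Y ^ ω) ^ 2 < 2 ^ Y)
    (h2 : B ^ 2 * (Y ^ ω) ^ (4 * 2 ^ ω) < 2 ^ Z) :
    ∃ D : ℕ, ∃ W : Finset ℕ, 0 < D ∧ Nat.Coprime D B ∧ D ≤ Y ^ ω * Z ^ k ∧
      2 ^ (ω * k) ≤ 2 ^ k * W.card ∧ ∀ w ∈ W, k ≤ w ∧ w ≤ D ∧ Rep k ((w : ℚ) / D) := by
  obtain ⟨R, S, r1, r2, r3, r4, r5⟩ := exists_R hB hY hY2 h1
  obtain ⟨μ, m1, m2, m3, E, m4, m5, m6⟩ := exists_mu (Z := Z) S hB r1
    (fun d hd => Nat.le_of_dvd r1 (r5 d hd)) (by rw [r4]; positivity) hZ2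
    (lt_of_le_of_lt (by rw [r4]; gcongr) h2)
  obtain ⟨W, w1, w2⟩ := exists_W0 E r1 m1.two_le (fun e he => r5 e (m4 he)) m6 k
  refine ⟨R * μ ^ k, W, Nat.mul_pos r1 (pow_pos m1.pos k),
    Nat.Coprime.mul_left r3 (Nat.Coprime.pow_left _ (m1.coprime_iff_not_dvd.2 m3)),
    by gcongr, ?_, fun w hw => ⟨(w2 w hw).1, by have := (w2 w hw).2.1; omega, (w2 w hw).2.2⟩⟩
  rw [w1, ← mul_pow, pow_mul, ← r4]
  exact Nat.pow_le_pow_left m5 k

end Vale.Agent.P012
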