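import Mathlib
import Vale.Agent.P012.Rep

/-!
The greedy steps: they produce a tiny remainder whose denominator has divisors of every size.
-/

namespace Vale.Agent.P012

open Finset

/-- `B` has a divisor within a factor `H` of every `x` in the range `[1, H B]`. -/
def Dense (H B : ℕ) : Prop :=
  ∀ x : ℚ, 1 ≤ x → x ≤ H * B → ∃ N : ℕ, N ∣ B ∧ (N : ℚ) ≤ x ∧ x ≤ H * N

theorem dense_self (b : ℕ) : Dense b b := by
  intro x h1 h2
  by_cases h : x ≤ b
  · exact ⟨1, one_dvd _, by simpa using h1, by simpa using h⟩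
  · exact ⟨b, dvd_rfl, (not_le.1 h).le, h2⟩

theorem Dense.mul {H B n : ℕ} (h : Dense H B) (hn0 : 0 < n) (hn : n ≤ H * B) :
    Dense H (B * n) := by
  intro x h1 h2
  by_cases hx : x ≤ H * B
  · obtain ⟨N, a, b, c⟩ := h x h1 hx
    exact ⟨N, a.mul_right n, b, c⟩
  · have hnq : (0 : ℚ) < n := by exact_mod_cast hn0
    have hn' : (n : ℚ) ≤ H * B := by exact_mod_cast hn
    obtain ⟨N, a, b, c⟩ := h (x / n) (by rw [le_div_iff₀ hnq]; linarith)
      (by rw [div_le_iff₀ hnq]; push_cast at h2; linarith)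
    refine ⟨N * n, Nat.mul_dvd_mul_right a n, ?_, ?_⟩
    · rw [le_div_iff₀ hnq] at b; push_cast; exact b
    · rw [div_le_iff₀ hnq] at c; push_cast; linarith

theorem Dense.div {H B g : ℕ} (h : Dense H (g * B)) (hg : 0 < g) : Dense (H * g) B := by
  intro x h1 h2
  obtain ⟨N, a, b, c⟩ := h x h1 (by push_cast at h2 ⊢; linarith)
  have hd : 0 < Nat.gcd N g := Nat.gcd_pos_of_pos_right _ hg
  obtain ⟨N', hN'⟩ := Nat.gcd_dvd_left N g
  obtain ⟨g', hg'⟩ := Nat.gcd_dvd_right N g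
  have hcop : Nat.Coprime N' g' := by
    have := Nat.coprime_div_gcd_div_gcd (m := N) (n := g) hd
    rwa [Nat.div_eq_of_eq_mul_right hd hN', Nat.div_eq_of_eq_mul_right hd hg'] at this
  generalize Nat.gcd N g = d at hd hN' hg'
  subst hN' hg'
  refine ⟨N', ?_, ?_, ?_⟩
  · rw [mul_assoc] at a
    exact hcop.dvd_of_dvd_mul_left (Nat.dvd_of_mul_dvd_mul_left hd a)
  · have : N' ≤ d * N' := Nat.le_mul_of_pos_left _ hd
    exact le_trans (by exact_mod_cast this) b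
  · refine c.trans ?_
    have hg1 : 1 ≤ g' := Nat.pos_of_ne_zero fun e => by simp [e] at hg
    have : H * (d * N') ≤ H * (d * g') * N' := by
      calc H * (d * N') = H * (d * 1) * N' := by ring
        _ ≤ _ := by gcongr
    exact_mod_cast this

theorem Dense.exists_dvd {H B y : ℕ} (h : Dense H B) (hH : 0 < H) (h1 : 1 ≤ y) (h2 : y ≤ B) :
    ∃ N, N ∣ B ∧ y ≤ N ∧ N ≤ H * y := by
  have hHq : (0 : ℚ) < H := by exact_mod_cast hH
  obtain ⟨N, a, b, c⟩ := h (H * y) (by exact_mod_cast Nat.mul_pos hH h1)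
    (by exact_mod_cast Nat.mul_le_mul_left H h2)
  refine ⟨N, a, ?_, by exact_mod_cast b⟩
  have := le_of_mul_le_mul_left c hHq
  exact_mod_cast this

theorem greedy_step {H a B P : ℕ} (hH : 2 ≤ H) (ha : 1 ≤ a) (hP1 : 1 ≤ P) (hP : a * P ≤ B)
    (hd : Dense H B) :
    ∃ a' B' : ℕ, 1 ≤ a' ∧ a' ≤ a ∧ Dense H B' ∧ B' + 1 ≤ (B + 1) ^ 2 ∧ a' * (P * (P + 1)) ≤ B' ∧
      Rep 1 ((a : ℚ) / B - a' / B') := by
  have hB : 1 ≤ B := le_trans (Nat.mul_pos ha hP1) hP
  obtain ⟨k, hk⟩ : ∃ k, k = B / a := ⟨_, rfl⟩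
  have h1 : a * k + B % a = B := by rw [hk]; exact Nat.div_add_mod B a
  have h2 : B % a < a := Nat.mod_lt _ ha
  have h3 : P ≤ k := by rw [hk, Nat.le_div_iff_mul_le ha, mul_comm]; exact hP
  have h4 : k ≤ B := by rw [hk]; exact Nat.div_le_self _ _
  refine ⟨a - B % a, B * (k + 1), by omega, by omega, hd.mul (by omega) (by nlinarith),
    by nlinarith, ?_, ?_⟩
  · calc (a - B % a) * (P * (P + 1)) ≤ a * (P * (P + 1)) := by gcongr; omega
      _ = a * P * (P + 1) := by ring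
      _ ≤ B * (k + 1) := by gcongr
  · have := (Rep.zero 0).add_unit (show 0 < k + 1 by omega)
    have e : (0 : ℚ) + 1 / ((k + 1 : ℕ) : ℚ) =
        (a : ℚ) / B - ((a - B % a : ℕ) : ℚ) / ((B * (k + 1) : ℕ) : ℚ) := by
      have hBq : (B : ℚ) ≠ 0 := by positivity
      have h5 : ((a - B % a : ℕ) : ℚ) = a * (k + 1) - B := by
        rw [Nat.cast_sub h2.le]
        have : (a : ℚ) * k + ((B % a : ℕ) : ℚ) = B := by exact_mod_cast h1
        linarith
      rw [h5]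
      push_cast
      field_simp
      ring
    rwa [e] at this

theorem greedy {a b : ℕ} (ha : 1 ≤ a) (hab : a < b) (j : ℕ) :
    ∃ a' B' : ℕ, 1 ≤ a' ∧ a' ≤ a ∧ Dense b B' ∧ B' + 1 ≤ (b + 1) ^ 2 ^ (j + 1) ∧
      a' * 2 ^ 2 ^ j ≤ B' ∧ Rep (j + 1) ((a : ℚ) / b - a' / B') := by
  induction j with
  | zero =>
    obtain ⟨a', B', h1, h2, h3, h4, h5, h6⟩ := greedy_step (H := b) (P := 1) (by omega) ha le_rfl
      (by omega : a * 1 ≤ b) (dense_self b)
    exact ⟨a', B', h1, h2, h3, by simpa using h4, by simpa using h5, h6⟩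
  | succ j ih =>
    obtain ⟨a1, B1, g1, g2, g3, g4, g5, g6⟩ := ih
    obtain ⟨a', B', h1, h2, h3, h4, h5, h6⟩ := greedy_step (H := b) (by omega) g1
      Nat.one_le_two_pow g5 g3
    refine ⟨a', B', h1, h2.trans g2, h3, ?_, ?_, ?_⟩
    · refine h4.trans ?_
      rw [pow_succ 2 (j + 1), pow_mul]
      exact Nat.pow_le_pow_left g4 2
    · refine le_trans ?_ h5
      rw [pow_succ 2 j, pow_mul, sq]
      gcongr
      omega
    · have := g6.add h6
      have e : (a : ℚ) / b - a1 / B1 + (a1 / B1 - a' / B') = a / b - a' / B' := by ring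
      rwa [e] at this

/-- The greedy steps followed by reduction to lowest terms. -/
theorem greedy_reduced {a b : ℕ} (ha : 1 ≤ a) (hab : a < b) (j : ℕ) :
    ∃ a' B' : ℕ, 1 ≤ a' ∧ a' ≤ b ∧ Nat.Coprime a' B' ∧ Dense (b * b) B' ∧
      B' ≤ (b + 1) ^ 2 ^ (j + 1) ∧ 2 ^ 2 ^ j ≤ B' ∧ Rep (j + 1) ((a : ℚ) / b - a' / B') := by
  obtain ⟨a1, B1, g1, g2, g3, g4, g5, g6⟩ := greedy ha hab j
  have hd : 0 < Nat.gcd a1 B1 := Nat.gcd_pos_of_pos_left _ g1
  have hdle : Nat.gcd a1 B1 ≤ a1 := Nat.gcd_le_left _ g1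
  obtain ⟨a', ha'⟩ := Nat.gcd_dvd_left a1 B1
  obtain ⟨B', hB'⟩ := Nat.gcd_dvd_right a1 B1
  have hcop : Nat.Coprime a' B' := by
    have := Nat.coprime_div_gcd_div_gcd (m := a1) (n := B1) hd
    rwa [Nat.div_eq_of_eq_mul_right hd ha', Nat.div_eq_of_eq_mul_right hd hB'] at this
  generalize Nat.gcd a1 B1 = d at hd ha' hB' hdle
  subst ha' hB'
  have ha1 : 1 ≤ a' := Nat.pos_of_ne_zero fun e => by simp [e] at g1
  have hle : a' ≤ d * a' := Nat.le_mul_of_pos_left _ hd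
  have hle2 : B' ≤ d * B' := Nat.le_mul_of_pos_left _ hd
  refine ⟨a', B', ha1, by omega, hcop, ?_, by omega, ?_, ?_⟩
  · intro x h1 h2
    by_cases hx : x ≤ ((b * d : ℕ) : ℚ) * B'
    · obtain ⟨N, c1, c2, c3⟩ := g3.div hd x h1 hx
      refine ⟨N, c1, c2, c3.trans ?_⟩
      have : b * d ≤ b * b := Nat.mul_le_mul_left _ (by omega)
      gcongr
    · refine ⟨B', dvd_rfl, le_trans ?_ (not_le.1 hx).le, h2⟩
      have : B' ≤ b * d * B' := Nat.le_mul_of_pos_left _ (Nat.mul_pos (by omega) hd)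
      exact_mod_cast this
  · have : d * (a' * 2 ^ 2 ^ j) ≤ d * B' := by rw [← mul_assoc]; exact g5
    have := Nat.le_of_mul_le_mul_left this hd
    exact le_trans (Nat.le_mul_of_pos_left _ ha1) this
  · have e : ((d * a' : ℕ) : ℚ) / ((d * B' : ℕ) : ℚ) = a' / B' := by
      push_cast
      have : (d : ℚ) ≠ 0 := by positivity
      exact mul_div_mul_left _ _ this
    rwa [e] at g6

end Vale.Agent.P012
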