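import Mathlib
import Vale.Agent.P003.Primes

/-!
A lower bound sieve of Brun-Hooley type.
-/

namespace Vale.Agent.P012

open Finset Function Vale.Agent.P003

set_option linter.unusedSectionVars false

section Abstract

variable {ι : Type*} [Fintype ι] [DecidableEq ι] (lv : ι → ℕ)

/-- number of sifting events of level `k` -/
def cnt (k : ℕ) (ω : ι → Bool) : ℕ := ((RR lv k).filter fun i => ω i = true).card

/-- the correction term -/
def del (M k : ℕ) (ω : ι → Bool) : ℝ := beta lv (M + 1) k ω - beta lv M k ω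

theorem del_sq (M k : ℕ) (ω : ι → Bool) :
    del lv M k ω ^ 2 = ((cnt lv k ω).choose (M + 1) : ℝ) ^ 2 := by
  unfold del cnt
  rw [beta_eq, beta_eq]
  generalize (RR lv k).filter (fun i => ω i = true) = S
  have e : S.powerset.filter (fun T => T.card ≤ M + 1) =
      S.powerset.filter (fun T => T.card ≤ M) ∪ S.powersetCard (M + 1) := by
    ext T
    simp only [mem_filter, mem_powerset, mem_union, mem_powersetCard]
    constructor
    · rintro ⟨a, b⟩
      by_cases h : T.card ≤ M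
      · exact Or.inl ⟨a, h⟩
      · exact Or.inr ⟨a, by omega⟩
    · rintro (⟨a, b⟩ | ⟨a, b⟩) <;> exact ⟨a, by omega⟩
  rw [e, Finset.sum_union, add_sub_cancel_left,
    Finset.sum_congr rfl (g := fun _ => (-1 : ℝ) ^ (M + 1))
      fun T hT => by rw [(mem_powersetCard.1 hT).2]]
  · rw [Finset.sum_const, card_powersetCard, nsmul_eq_mul, mul_pow, ← pow_mul, mul_comm (M + 1) 2,
      pow_mul]
    simp
  · rw [Finset.disjoint_left]
    intro T h1 h2
    have := (mem_filter.1 h1).2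
    have := (mem_powersetCard.1 h2).2
    omega

theorem beta_of_cnt_zero (M k : ℕ) (ω : ι → Bool) (h : cnt lv k ω = 0) : beta lv M k ω = 1 := by
  rw [beta_eq, Finset.card_eq_zero.1 h]; simp [Finset.filter_singleton]

theorem beta_of_cnt_le (M k : ℕ) (ω : ι → Bool) (h : cnt lv k ω ≠ 0) (hM : cnt lv k ω ≤ M) :
    beta lv M k ω = 0 := by
  rw [beta_eq]
  unfold cnt at h hM
  generalize (RR lv k).filter (fun i => ω i = true) = S at h hM
  rw [Finset.filter_true_of_mem fun T hT => (Finset.card_le_card (mem_powerset.1 hT)).trans hM]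
  exact_mod_cast Finset.sum_powerset_neg_one_pow_card_of_nonempty (Finset.card_ne_zero.1 h)

theorem prod_zero_of_cnt (k : ℕ) (ω : ι → Bool) (h : cnt lv k ω ≠ 0) :
    ∏ i ∈ RR lv k, (if ω i then (0 : ℝ) else 1) = 0 := by
  obtain ⟨i, hi⟩ := Finset.card_ne_zero.1 h
  exact Finset.prod_eq_zero (mem_filter.1 hi).1 (by simp [(mem_filter.1 hi).2])

theorem le_beta_sq (M k : ℕ) (ω : ι → Bool) :
    ∏ i ∈ RR lv k, (if ω i then (0 : ℝ) else 1) ≤ beta lv M k ω ^ 2 := by
  by_cases h : cnt lv k ω = 0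
  · rw [beta_of_cnt_zero lv M k ω h, one_pow]
    exact Finset.prod_le_one (fun i _ => by split_ifs <;> norm_num)
      fun i _ => by split_ifs <;> norm_num
  · rw [prod_zero_of_cnt lv k ω h]; exact sq_nonneg _

theorem bad_le (M k : ℕ) (ω : ι → Bool) :
    beta lv M k ω ^ 2 * del lv M k ω ^ 2 ≤
      (∏ i ∈ RR lv k, (if ω i then (32 : ℝ) else 1)) * (4 / 2 ^ M) := by
  have hp : (0 : ℝ) ≤ ∏ i ∈ RR lv k, (if ω i then (32 : ℝ) else 1) :=
    Finset.prod_nonneg fun i _ => by split_ifs <;> norm_num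
  by_cases h : cnt lv k ω = 0
  · rw [del_sq, h]
    simp only [Nat.choose_zero_succ, Nat.cast_zero, ne_eq, OfNat.ofNat_ne_zero, not_false_eq_true,
      zero_pow, mul_zero]
    positivity
  · have h1 := beta_pow_le lv M k ω (j := 4) (by norm_num) le_rfl
    have h2 := beta_pow_le lv (M + 1) k ω (j := 4) (by norm_num) le_rfl
    unfold bhat at h1 h2
    rw [prod_zero_of_cnt lv k ω h, zero_add, Even.pow_abs (by decide)] at h1 h2
    unfold del
    generalize beta lv M k ω = x at h1 ⊢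
    generalize beta lv (M + 1) k ω = y at h2 ⊢
    generalize ∏ i ∈ RR lv k, (if ω i then (32 : ℝ) else 1) = c at h1 h2 hp ⊢
    have h3 : c / 2 ^ (M + 1) ≤ c / 2 ^ M :=
      div_le_div_of_nonneg_left hp (by positivity) (pow_le_pow_right₀ (by norm_num) (by omega))
    have h4 : c * (4 / 2 ^ M) = 4 * (c / 2 ^ M) := by ring
    rw [h4]
    nlinarith [sq_nonneg (x ^ 2 - y ^ 2), mul_nonneg (sq_nonneg x) (sq_nonneg (x + y))]

theorem del_dep (M k : ℕ) : DependsOn (del lv M k) {i | lv i = k} := by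
  intro x y hxy
  unfold del
  rw [beta_dep lv _ k hxy, beta_dep lv _ k hxy]

/-- the lower bound sieve weight -/
def low (Mf : ℕ → ℕ) (k : ℕ) (ω : ι → Bool) : ℝ :=
  nu lv Mf k ω ^ 2 * (1 - ∑ l ∈ range k, del lv (Mf l) l ω ^ 2)

theorem low_le_one (Mf : ℕ → ℕ) (k : ℕ) : low lv Mf k (fun _ => false) ≤ 1 := by
  unfold low
  rw [nu_false, one_pow, one_mul]
  linarith [Finset.sum_nonneg (s := range k) fun l _ => sq_nonneg (del lv (Mf l) l fun _ => false)]

theorem low_nonpos (Mf : ℕ → ℕ) (k : ℕ) (ω : ι → Bool) (i : ι) (hi : lv i < k)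
    (hω : ω i = true) : low lv Mf k ω ≤ 0 := by
  have h : cnt lv (lv i) ω ≠ 0 :=
    Finset.card_ne_zero.2 ⟨i, mem_filter.2 ⟨mem_filter.2 ⟨mem_univ _, rfl⟩, hω⟩⟩
  unfold low
  by_cases hM : cnt lv (lv i) ω ≤ Mf (lv i)
  · rw [nu, Finset.prod_eq_zero (mem_range.2 hi) (beta_of_cnt_le lv _ _ ω h hM)]
    simp
  · refine mul_nonpos_of_nonneg_of_nonpos (sq_nonneg _) ?_
    have h1 := Finset.single_le_sum (f := fun l => del lv (Mf l) l ω ^ 2)
      (fun l _ => sq_nonneg _) (mem_range.2 hi)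
    have h2 : (1 : ℝ) ≤ ((cnt lv (lv i) ω).choose (Mf (lv i) + 1) : ℝ) := by
      exact_mod_cast Nat.choose_pos (by omega)
    rw [del_sq] at h1
    nlinarith

theorem PE_low {q : ι → ℝ} (h0 : ∀ i, 0 ≤ q i) (h1 : ∀ i, q i ≤ 1 / 2) {lam : ℝ}
    (hlam : ∀ k, ∑ i ∈ RR lv k, q i ≤ lam) (m k : ℕ)
    (hm : Real.exp (33 * lam) * (8 / 2 ^ m) ≤ 1) :
    Real.exp (-(2 * lam)) ^ k / 2 ≤ PE (α := fun _ => Bool) (bern q) (low lv (MM m k) k) := by
  have hP := bern_isProb h0 h1
  obtain ⟨y, hy⟩ : ∃ y : ℕ → ℝ, ∀ l, y l =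
      PE (α := fun _ => Bool) (bern q) (fun ω => beta lv (MM m k l) l ω ^ 2) := ⟨_, fun _ => rfl⟩
  have hy1 : ∀ l, Real.exp (-(2 * lam)) ≤ y l := by
    intro l
    rw [hy]
    refine le_trans ?_ (PE_mono hP.nonneg fun ω => le_beta_sq lv _ l ω)
    rw [PE_prod_RR]
    refine le_trans (Real.exp_le_exp.2 (by linarith [hlam l]))
      ((exp_le_prod_one_sub (RR lv l) q (fun i _ => h0 i) fun i _ => h1 i).trans (le_of_eq ?_))
    exact Finset.prod_congr rfl fun i _ => by ring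
  have hy0 : ∀ l, 0 ≤ y l := fun l => (Real.exp_pos _).le.trans (hy1 l)
  have hz : ∀ l, PE (α := fun _ => Bool) (bern q)
      (fun ω => beta lv (MM m k l) l ω ^ 2 * del lv (MM m k l) l ω ^ 2) ≤
      y l * (Real.exp (33 * lam) * (4 / 2 ^ MM m k l)) := by
    intro l
    refine (PE_mono hP.nonneg fun ω => bad_le lv _ l ω).trans ?_
    rw [PE_mul_const, PE_prod_RR, ← mul_assoc]
    refine mul_le_mul_of_nonneg_right ?_ (by positivity)
    refine (Real.prod_one_add_le_exp_sum _ fun i => mul_nonneg (by norm_num) (h0 i)).trans ?_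
    refine le_trans ?_ (mul_le_mul_of_nonneg_right (hy1 l) (Real.exp_pos _).le)
    rw [← Finset.mul_sum, ← Real.exp_add]
    exact Real.exp_le_exp.2 (by linarith [hlam l])
  have hν : PE (α := fun _ => Bool) (bern q) (fun ω => nu lv (MM m k) k ω ^ 2) =
      ∏ l ∈ range k, y l := by
    simp only [nu, ← Finset.prod_pow, hy]
    exact PE_prod_indep hP.sum_one lv _ (fun l ω => beta lv (MM m k l) l ω ^ 2) fun l x x' h => by
      simp only [beta_dep lv _ l h]
  have hνd : ∀ l ∈ range k, PE (α := fun _ => Bool) (bern q)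
      (fun ω => nu lv (MM m k) k ω ^ 2 * del lv (MM m k l) l ω ^ 2) ≤
      (∏ j ∈ range k, y j) * (Real.exp (33 * lam) * (4 / 2 ^ MM m k l)) := by
    intro l hl
    have e1 : ∀ ω, nu lv (MM m k) k ω ^ 2 * del lv (MM m k l) l ω ^ 2 =
        ∏ j ∈ range k, (beta lv (MM m k j) j ω ^ 2 *
          if l = j then del lv (MM m k j) j ω ^ 2 else 1) := by
      intro ω
      rw [Finset.prod_mul_distrib, Finset.prod_ite_eq, if_pos hl, nu, Finset.prod_pow]
    have e2 : (∏ j ∈ range k, y j) * (Real.exp (33 * lam) * (4 / 2 ^ MM m k l)) =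
        ∏ j ∈ range k, (y j *
          if l = j then Real.exp (33 * lam) * (4 / 2 ^ MM m k j) else 1) := by
      rw [Finset.prod_mul_distrib, Finset.prod_ite_eq, if_pos hl]
    simp only [e1]
    rw [e2, PE_prod_indep hP.sum_one lv _ (fun j ω => beta lv (MM m k j) j ω ^ 2 *
      if l = j then del lv (MM m k j) j ω ^ 2 else 1) fun j x x' h => by
        simp only [beta_dep lv _ j h, del_dep lv _ j h]]
    refine Finset.prod_le_prod (fun j _ => PE_nonneg hP.nonneg fun ω => ?_) fun j _ => ?_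
    · split_ifs <;> positivity
    · split_ifs
      · exact hz j
      · simp only [mul_one, hy, le_refl]
  have e3 : low lv (MM m k) k = fun ω => nu lv (MM m k) k ω ^ 2 -
      ∑ l ∈ range k, nu lv (MM m k) k ω ^ 2 * del lv (MM m k l) l ω ^ 2 := by
    funext ω; rw [low, mul_sub, mul_one, Finset.mul_sum]
  rw [e3, PE_sub, PE_sum, hν]
  have h2 := Finset.sum_le_sum hνd
  rw [← Finset.mul_sum, ← Finset.mul_sum] at h2
  have h3 : ∑ l ∈ range k, 4 / (2 : ℝ) ^ MM m k l ≤ 4 / 2 ^ m := by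
    have := sum_MM_le m k 0
    simp only [add_zero, Nat.cast_zero, zero_add] at this
    have e : ∑ l ∈ range k, 4 / (2 : ℝ) ^ MM m k l = 4 * ∑ l ∈ range k, 1 / (2 : ℝ) ^ MM m k l := by
      rw [Finset.mul_sum]; exact Finset.sum_congr rfl fun _ _ => by ring
    rw [e, div_eq_mul_one_div 4]
    linarith
  have h4 : Real.exp (33 * lam) * ∑ l ∈ range k, 4 / (2 : ℝ) ^ MM m k l ≤ 1 / 2 := by
    refine (mul_le_mul_of_nonneg_left h3 (Real.exp_pos _).le).trans ?_
    have : Real.exp (33 * lam) * (8 / 2 ^ m) = 2 * (Real.exp (33 * lam) * (4 / 2 ^ m)) := by ring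
    linarith
  have h5 : Real.exp (-(2 * lam)) ^ k ≤ ∏ j ∈ range k, y j := by
    have := Finset.prod_le_prod (s := range k) (fun _ _ => (Real.exp_pos (-(2 * lam))).le)
      fun l _ => hy1 l
    simpa using this
  have h6 := mul_le_mul_of_nonneg_left h4 (Finset.prod_nonneg fun j (_ : j ∈ range k) => hy0 j)
  linarith

theorem low_ctrl {a : ι → ℝ} (ha : ∀ i, 1 ≤ a i)
    (hsum : ∀ k, ∑ i ∈ RR lv k, a i ≤ (Uk k : ℝ) ^ 2) (m k : ℕ) :
    Ctrl (α := fun _ => Bool) a (low lv (MM m (k + 1)) (k + 1)) ((Uk k : ℝ) ^ (12 * m + 40)) := by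
  have hU : (2 : ℝ) ≤ Uk k := by exact_mod_cast two_le_Uk k
  have hUe : ∀ n, (Uk k : ℝ) ^ n = 2 ^ (2 ^ k * n) := fun n => by
    rw [Uk]; push_cast; rw [← pow_mul]
  have h1 := (nu_ctrl lv ha hsum m (k + 1) (k + 1) le_rfl).pow ha 2
  have h2 : ∀ l ∈ range (k + 1), Ctrl (α := fun _ => Bool) a
      (fun ω => del lv (MM m (k + 1) l) l ω ^ 2) ((Uk k : ℝ) ^ (4 * m + 14)) := by
    intro l hl
    refine (((beta_ctrl lv ha (MM m (k + 1) l + 1) l (hsum l)).sub ha
      (beta_ctrl lv ha (MM m (k + 1) l) l (hsum l))).pow ha 2).mono ?_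
    obtain ⟨d, rfl⟩ : ∃ d, k = l + d := ⟨k - l, by have := mem_range.1 hl; omega⟩
    have e1 : MM m (l + d + 1) l = m + d + 1 := by unfold MM; omega
    have e2 : 2 ^ l * (2 * (m + d + 1 + 1) + 2) ≤ 2 ^ (l + d) * (2 * m + 6) := by
      rw [pow_add, mul_assoc]
      refine Nat.mul_le_mul_left _ ?_
      have : d + 1 ≤ 2 ^ d := Nat.lt_two_pow_self
      nlinarith
    have e3 : 2 ^ l * (2 * (m + d + 1) + 2) ≤ 2 ^ (l + d) * (2 * m + 6) :=
      le_trans (Nat.mul_le_mul_left _ (by omega)) e2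
    have e4 := pow_le_pow_right₀ (one_le_two (α := ℝ)) e2
    have e5 := pow_le_pow_right₀ (one_le_two (α := ℝ)) e3
    rw [← hUe] at e4 e5
    rw [e1, show 4 * m + 14 = (2 * m + 6 + 1) * 2 by ring, pow_mul (Uk (l + d) : ℝ),
      pow_succ _ (2 * m + 6)]
    refine pow_le_pow_left₀ (by positivity) ?_ 2
    have : (0 : ℝ) ≤ (Uk (l + d) : ℝ) ^ (2 * m + 6) := by positivity
    nlinarith
  have h3 := (Ctrl.const (a := a) (α := fun _ => Bool) 1).sub ha (Ctrl.sum _ h2)
  refine (h1.mul ha h3).mono ?_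
  have e1 : ((2 : ℝ) ^ (2 ^ (k + 1) * (2 * m + 6))) ^ 2 = (Uk k : ℝ) ^ (8 * m + 24) := by
    rw [hUe, ← pow_mul]; congr 1; ring
  rw [e1, show 12 * m + 40 = 8 * m + 24 + (4 * m + 14 + 2) by ring, pow_add _ (8 * m + 24)]
  refine mul_le_mul_of_nonneg_left ?_ (by positivity)
  simp only [abs_one, sum_const, card_range, nsmul_eq_mul]
  have e2 : ((k + 1 : ℕ) : ℝ) ≤ Uk k := by
    have : k + 1 ≤ Uk k := le_trans Nat.lt_two_pow_self (Nat.lt_two_pow_self).le
    exact_mod_cast this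
  have e3 : (1 : ℝ) ≤ (Uk k : ℝ) ^ (4 * m + 14) := one_le_pow₀ (by linarith)
  rw [pow_add _ (4 * m + 14)]
  generalize (Uk k : ℝ) ^ (4 * m + 14) = x at e3 ⊢
  nlinarith [mul_le_mul_of_nonneg_right e2 (zero_le_one.trans e3),
    mul_nonneg (zero_le_one.trans e3) (mul_nonneg (sub_nonneg.2 hU) (by linarith : (0 : ℝ) ≤ Uk k))]

end Abstract

theorem push_bern {ι : Type*} [Fintype ι] [DecidableEq ι] {α : ι → Type*} [∀ i, Fintype (α i)]
    {w : ∀ i, α i → ℝ} (hw : ∀ i, ∑ t, w i t = 1) (f : ∀ i, α i → Bool) (Φ : (ι → Bool) → ℝ) :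
    PE w (fun x => Φ (fun i => f i (x i))) = PE (α := fun _ => Bool)
      (bern fun i => ∑ t, if f i t = true then w i t else 0) Φ := by
  rw [PE_map w (β := fun _ => Bool) f Φ]
  congr 1
  funext i b
  cases b
  · simp only [bern, Bool.false_eq_true, if_false]
    rw [← hw i, ← Finset.sum_sub_distrib]
    refine Finset.sum_congr rfl fun t _ => ?_
    cases f i t <;> simp
  · simp [bern]

open Classical in
/-- indices whose value of the linear form has no small prime factor -/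
noncomputable def Rough (k α β T : ℕ) : Finset ℕ :=
  (range T).filter fun n => ∀ p, p.Prime → p ∣ α * n + β → Uk k < p

theorem mem_Rough {k α β T n : ℕ} :
    n ∈ Rough k α β T ↔ n < T ∧ ∀ p, p.Prime → p ∣ α * n + β → Uk k < p := by
  simp only [Rough, mem_filter, mem_range]

theorem rough_count {lam : ℝ} (hlam : ∀ k, ∑ p ∈ PP k k, 1 / (p : ℝ) ≤ lam) (m k : ℕ)
    (hm : Real.exp (33 * lam) * (8 / 2 ^ m) ≤ 1) {α β : ℕ} (hc : Nat.Coprime α β) (T : ℕ) :
    T * (Real.exp (-(2 * lam)) ^ (k + 1) / 2) - 4 * (Uk k : ℝ) ^ (12 * m + 40) ≤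
      (Rough k α β T).card := by
  have a1 := a_one_le (pa 0 k)
  obtain ⟨f, hf⟩ : ∃ f : ∀ i, ZMod (pa 0 k i) → Bool, ∀ i t, f i t = decide (α * t + β = 0) :=
    ⟨_, fun _ _ => rfl⟩
  obtain ⟨q, hq⟩ : ∃ q : PP 0 k → ℝ,
      q = fun i => ∑ t, if f i t = true then unif (pa 0 k) i t else 0 := ⟨_, rfl⟩
  have h0 : ∀ i, 0 ≤ q i := fun i => by
    rw [hq]
    refine Finset.sum_nonneg fun t _ => ?_
    split_ifs
    · exact (unif_isProb _).nonneg i t
    · exact le_rfl
  have hq1 : ∀ i, q i ≤ 1 / (pa 0 k i : ℝ) := fun i => by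
    rw [hq]
    simp only [unif]
    rw [← Finset.sum_filter, Finset.sum_const, nsmul_eq_mul]
    refine mul_le_of_le_one_left (by positivity) ?_
    rw [Nat.cast_le_one, Finset.card_le_one]
    intro t ht t' ht'
    have e1 := (mem_filter.1 ht).2
    have e2 := (mem_filter.1 ht').2
    rw [hf, decide_eq_true_eq] at e1 e2
    by_contra hne
    have e3 : (α : ZMod (pa 0 k i)) * (t - t') = 0 := by linear_combination e1 - e2
    have e4 : (α : ZMod (pa 0 k i)) = 0 := (mul_eq_zero.1 e3).resolve_right (sub_ne_zero.2 hne)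
    rw [e4, zero_mul, zero_add] at e1
    rw [ZMod.natCast_eq_zero_iff] at e1 e4
    exact (Fact.out : (pa 0 k i).Prime).one_lt.ne' (Nat.eq_one_of_dvd_coprimes hc e4 e1)
  have h1 : ∀ i, q i ≤ 1 / 2 := fun i => (hq1 i).trans (one_div_prime_le Fact.out)
  have hE := PE_low (lvP 0 k) h0 h1 (lam := lam) (fun l =>
    (Finset.sum_le_sum fun i _ => hq1 i).trans
      ((sum_RR_le 0 k l (fun p => 1 / (p : ℝ)) fun _ => by positivity).trans (hlam l)))
    m (k + 1) hm
  have hct := (low_ctrl (lvP 0 k) a1 (sum_pa_le 0 k) m k).map (α := fun i => ZMod (pa 0 k i)) f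
  have hle := low_le_one (lvP 0 k) (MM m (k + 1)) (k + 1)
  have hnp := low_nonpos (lvP 0 k) (MM m (k + 1)) (k + 1)
  generalize low (lvP 0 k) (MM m (k + 1)) (k + 1) = F at hE hct hle hnp
  rw [hq, ← push_bern (unif_isProb (pa 0 k)).sum_one f F] at hE
  have ht := transfer (pa 0 k) 1 (pa_cop 0 k) (fun _ => Nat.coprime_one_left _)
    (G := fun _ x => F (fun i => f i (x i))) (fun _ => hct) (Nat.zero_le T)
  have h3 := (abs_le.1 ht).1
  simp only [Nat.cast_one, div_one, one_mul, sum_const, card_univ, ZMod.card, one_smul, one_pow,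
    mul_one, Nat.cast_zero, sub_zero] at h3
  have h2 : ∑ n ∈ Ico 0 T, F (fun i => f i (n : ZMod (pa 0 k i))) ≤ (Rough k α β T).card := by
    rw [Finset.card_eq_sum_ones, Nat.cast_sum, ← Finset.range_eq_Ico,
      ← Finset.sum_filter_add_sum_filter_not (range T) (fun n => n ∈ Rough k α β T),
      Finset.filter_mem_eq_inter,
      Finset.inter_eq_right.2 fun n hn => mem_range.2 (mem_Rough.1 hn).1,
      ← add_zero (∑ _ ∈ _, ((1 : ℕ) : ℝ))]
    refine add_le_add (Finset.sum_le_sum fun n hn => ?_) (Finset.sum_nonpos fun n hn => ?_)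
    · have : (fun i => f i (n : ZMod (pa 0 k i))) = fun _ => false := by
        funext i
        rw [hf, decide_eq_false_iff_not]
        intro e
        have e1 : ((α * n + β : ℕ) : ZMod (pa 0 k i)) = 0 := by push_cast; exact e
        rw [ZMod.natCast_eq_zero_iff] at e1
        exact absurd ((mem_Rough.1 hn).2 _ Fact.out e1) (not_lt.2 (pa_le 0 k i))
      rw [this, Nat.cast_one]
      exact hle
    · have h4 := (mem_filter.1 hn).2
      rw [mem_Rough] at h4
      push Not at h4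
      obtain ⟨p, hp, hd, hp2⟩ := h4 (mem_range.1 (mem_filter.1 hn).1)
      have hmem : p ∈ PP 0 k := mem_PP.2 ⟨hp, Nat.zero_le _, (lev_le_iff _ _).2 hp2⟩
      refine hnp _ ⟨p, hmem⟩ (Nat.lt_succ_of_le ((lev_le_iff _ _).2 hp2)) ?_
      rw [hf, decide_eq_true_eq]
      have e1 : ((α * n + β : ℕ) : ZMod (pa 0 k ⟨p, hmem⟩)) = 0 :=
        (ZMod.natCast_eq_zero_iff _ _).2 hd
      push_cast at e1
      exact e1
  have h5 := mul_le_mul_of_nonneg_left hE (Nat.cast_nonneg (α := ℝ) T)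
  linarith

/-- Many pairwise coprime values of a primitive linear form on a short range. -/
theorem coprime_values : ∃ r κ : ℕ, ∀ k α β : ℕ, Nat.Coprime α β → ∃ I : Finset ℕ,
    I ⊆ range (Uk k ^ κ) ∧ Uk k ≤ 4 * 2 ^ (r * (k + 1)) * I.card ∧
    ∀ i ∈ I, ∀ j ∈ I, i ≠ j → Nat.Coprime (α * i + β) (α * j + β) := by
  obtain ⟨lam, hl0, hlam⟩ := exists_lam
  obtain ⟨m, hm⟩ : ∃ m : ℕ, Real.exp (33 * lam) * (8 / 2 ^ m) ≤ 1 := by
    obtain ⟨n, hn⟩ := exists_nat_ge (Real.exp (33 * lam) * 8)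
    refine ⟨n, ?_⟩
    rw [mul_div_assoc', div_le_one (by positivity)]
    exact hn.trans (by exact_mod_cast (Nat.lt_two_pow_self).le)
  obtain ⟨r, hr⟩ : ∃ r : ℕ, 1 / 2 ^ r ≤ Real.exp (-(2 * lam)) := by
    obtain ⟨n, hn⟩ := exists_nat_ge (Real.exp (2 * lam))
    refine ⟨n, ?_⟩
    rw [Real.exp_neg, ← one_div]
    exact one_div_le_one_div_of_le (Real.exp_pos _)
      (hn.trans (by exact_mod_cast (Nat.lt_two_pow_self).le))
  refine ⟨r, 12 * m + 44 + r, fun k α β hc => ?_⟩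
  have h1 := rough_count hlam m k hm hc (Uk k ^ (12 * m + 44 + r))
  have hU := two_le_Uk k
  obtain ⟨v, hv⟩ : ∃ v, v = 2 ^ (r * (k + 1)) := ⟨_, rfl⟩
  have hv0 : 0 < v := by rw [hv]; positivity
  have hvU : v ≤ Uk k ^ r := by
    rw [hv, Uk, ← pow_mul, mul_comm r]
    exact Nat.pow_le_pow_right (by norm_num) (Nat.mul_le_mul_right _ Nat.lt_two_pow_self)
  have h2 : 1 / (v : ℝ) ≤ Real.exp (-(2 * lam)) ^ (k + 1) := by
    rw [hv]; push_cast
    rw [pow_mul, ← one_pow (k + 1), ← div_pow]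
    exact pow_le_pow_left₀ (by positivity) hr _
  have h3 : Uk k ^ (12 * m + 44 + r) ≤ 4 * v * (Rough k α β (Uk k ^ (12 * m + 44 + r))).card := by
    have hvR : (0 : ℝ) < v := by exact_mod_cast hv0
    have e1 : 16 * v * Uk k ^ (12 * m + 40) ≤ Uk k ^ (12 * m + 44 + r) := by
      rw [show 12 * m + 44 + r = 4 + r + (12 * m + 40) by ring, pow_add _ (4 + r), pow_add _ 4]
      have : 16 ≤ Uk k ^ 4 := le_trans (by norm_num) (Nat.pow_le_pow_left hU 4)
      gcongr
    have e2 : (16 : ℝ) * v * (Uk k : ℝ) ^ (12 * m + 40) ≤ ((Uk k ^ (12 * m + 44 + r) : ℕ) : ℝ) := by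
      exact_mod_cast e1
    generalize Uk k ^ (12 * m + 44 + r) = T at h1 e2 ⊢
    have e3 := mul_le_mul_of_nonneg_left h2 (Nat.cast_nonneg (α := ℝ) T)
    have e4 : (T : ℝ) * (1 / v) * v = T := by field_simp
    have e5 : (T : ℝ) ≤ 4 * v * (Rough k α β T).card := by nlinarith
    exact_mod_cast e5
  rw [← hv]
  have hT : Uk k ^ (12 * m + 44 + r) = Uk k ^ (12 * m + 43 + r) * Uk k := by ring
  have hT0 : 0 < Uk k ^ (12 * m + 43 + r) := by positivity
  generalize Uk k ^ (12 * m + 43 + r) = T' at hT hT0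
  generalize Uk k ^ (12 * m + 44 + r) = T at hT h3 ⊢
  have hmap : ∀ n ∈ Rough k α β T, n / Uk k ∈ range T' := fun n hn =>
    mem_range.2 (Nat.div_lt_of_lt_mul (by have := (mem_Rough.1 hn).1; rwa [hT, mul_comm] at this))
  obtain ⟨w, _, hw⟩ : ∃ w ∈ range T',
      Uk k ≤ 4 * v * ((Rough k α β T).filter fun n => n / Uk k = w).card := by
    refine Finset.exists_le_of_sum_le ⟨0, mem_range.2 hT0⟩ ?_
    rw [← Finset.mul_sum, ← Finset.card_eq_sum_card_fiberwise hmap]
    simpa [← hT] using h3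
  refine ⟨_, fun n hn => mem_range.2 (mem_Rough.1 (mem_filter.1 hn).1).1, hw, ?_⟩
  have key : ∀ i j, i ∈ Rough k α β T → i / Uk k = j / Uk k → i < j →
      Nat.Coprime (α * i + β) (α * j + β) := by
    intro i j hi hij hlt
    refine Nat.coprime_of_dvd fun p hp d1 d2 => ?_
    have e1 := (mem_Rough.1 hi).2 p hp d1
    obtain ⟨s, rfl⟩ := Nat.exists_eq_add_of_lt hlt
    have e2 : α * (i + s + 1) + β = α * i + β + α * (s + 1) := by ring
    rw [e2, ← Nat.dvd_add_iff_right d1] at d2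
    rcases (Nat.Prime.dvd_mul hp).1 d2 with d3 | d3
    · rw [← Nat.dvd_add_iff_right (d3.mul_right i)] at d1
      exact hp.one_lt.ne' (Nat.eq_one_of_dvd_coprimes hc d3 d1)
    · have e3 := Nat.le_of_dvd (by omega) d3
      have e4 := Nat.div_add_mod i (Uk k)
      have e5 := Nat.div_add_mod (i + s + 1) (Uk k)
      have e6 := Nat.mod_lt (i + s + 1) (show 0 < Uk k by omega)
      rw [← hij] at e5
      omega
  intro i hi j hj hne
  have hi' := mem_filter.1 hi
  have hj' := mem_filter.1 hj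
  rcases lt_or_gt_of_ne hne with h | h
  · exact key i j hi'.1 (hi'.2.trans hj'.2.symm) h
  · exact (key j i hj'.1 (hj'.2.trans hi'.2.symm) h).symm

end Vale.Agent.P012
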