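import Mathlib
import Vale.Agent.P003.Ctrl

/-!
A variance (large sieve type) inequality: a dense set `W` has two elements whose sum is divisible
by one of many pairwise coprime moduli.
-/

namespace Vale.Agent.P012

open Finset Function Vale.Agent.P003

open Classical in
/-- odd test function attached to `W` modulo `q` -/
noncomputable def psi (W : Finset ℕ) (q : ℕ) (x : ZMod q) : ℝ :=
  (if ∃ w ∈ W, (w : ZMod q) = x then 1 else 0) - (if ∃ w ∈ W, (w : ZMod q) = -x then 1 else 0)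

theorem psi_neg (W : Finset ℕ) (q : ℕ) (x : ZMod q) : psi W q (-x) = -psi W q x := by
  simp only [psi, neg_neg]; ring

theorem psi_abs (W : Finset ℕ) (q : ℕ) (x : ZMod q) : |psi W q x| ≤ 1 := by
  unfold psi; split_ifs <;> norm_num

theorem psi_sum (W : Finset ℕ) (q : ℕ) [NeZero q] : ∑ x, psi W q x = 0 := by
  have h := Equiv.sum_comp (Equiv.neg (ZMod q)) (psi W q)
  simp only [Equiv.neg_apply, psi_neg, Finset.sum_neg_distrib] at h
  linarith

theorem psi_one (W : Finset ℕ) (q : ℕ) (h : ∀ w ∈ W, ∀ w' ∈ W, ¬ q ∣ w + w') {w : ℕ}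
    (hw : w ∈ W) : psi W q w = 1 := by
  unfold psi
  rw [if_pos ⟨w, hw, rfl⟩, if_neg, sub_zero]
  rintro ⟨w', hw', e⟩
  refine h w hw w' hw' ?_
  rw [← ZMod.natCast_eq_zero_iff]
  push_cast
  rw [e, add_neg_cancel]

theorem psi_corr (W : Finset ℕ) {q q' : ℕ} (hq : 0 < q) (hq' : 0 < q') (hc : Nat.Coprime q q')
    (X : ℕ) : ∑ x ∈ range X, psi W q x * psi W q' x ≤ q * q' := by
  have : NeZero q := ⟨hq.ne'⟩
  have : NeZero q' := ⟨hq'.ne'⟩
  have h1 := crt_sum (fun _ : Unit => q') q (fun i j h => absurd (Subsingleton.elim i j) h)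
    (fun _ => hc) (fun r x => psi W q r * psi W q' (x ()))
  simp only [← Finset.mul_sum, ← Finset.sum_mul, psi_sum, zero_mul, univ_unique, prod_const,
    card_singleton, pow_one] at h1
  have hper : Periodic (fun x : ℕ => psi W q x * psi W q' x) (q * q') := by
    intro x; simp
  have h2 := sum_range_periodic_approx (Nat.mul_pos hq hq') hper (M := 1) (μ := 0)
    (fun n => by
      rw [sub_zero, abs_mul]
      exact mul_le_one₀ (psi_abs _ _ _) (abs_nonneg _) (psi_abs _ _ _)) (by simpa using h1) X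
  have h3 := (abs_le.1 h2).2
  simpa using h3

theorem variance (W I : Finset ℕ) (q : ℕ → ℕ) (X Q : ℕ) (hW : W ⊆ range X)
    (hq : ∀ i ∈ I, 0 < q i) (hQ : ∀ i ∈ I, q i ≤ Q)
    (hc : ∀ i ∈ I, ∀ j ∈ I, i ≠ j → Nat.Coprime (q i) (q j))
    (h : ∀ i ∈ I, ∀ w ∈ W, ∀ w' ∈ W, ¬ q i ∣ w + w') :
    W.card * I.card ^ 2 ≤ I.card * X + I.card ^ 2 * Q ^ 2 := by
  have h1 : (W.card : ℝ) * (I.card : ℝ) ^ 2 ≤ ∑ x ∈ range X, (∑ i ∈ I, psi W (q i) x) ^ 2 := by
    refine le_trans (le_of_eq ?_)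
      (Finset.sum_le_sum_of_subset_of_nonneg hW fun _ _ _ => sq_nonneg _)
    rw [Finset.sum_congr rfl (g := fun _ => (I.card : ℝ) ^ 2)]
    · simp
    · intro w hw
      rw [Finset.sum_congr rfl fun i hi => psi_one W (q i) (h i hi) hw]
      simp
  have h2 : ∑ x ∈ range X, (∑ i ∈ I, psi W (q i) x) ^ 2 =
      ∑ i ∈ I, ∑ j ∈ I, ∑ x ∈ range X, psi W (q i) x * psi W (q j) x := by
    simp only [sq, Finset.sum_mul_sum]
    rw [Finset.sum_comm]
    exact Finset.sum_congr rfl fun i _ => Finset.sum_comm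
  have h3 : ∀ i ∈ I, ∑ j ∈ I, ∑ x ∈ range X, psi W (q i) x * psi W (q j) x ≤
      X + I.card * (Q : ℝ) ^ 2 := by
    intro i hi
    have h4 : ∀ j ∈ I, ∑ x ∈ range X, psi W (q i) x * psi W (q j) x ≤
        (if i = j then (X : ℝ) else 0) + (Q : ℝ) ^ 2 := by
      intro j hj
      split_ifs with e
      · refine le_trans (Finset.sum_le_sum (g := fun _ => (1 : ℝ)) fun x _ => ?_) ?_
        · refine (le_abs_self _).trans ?_
          rw [abs_mul]
          exact mul_le_one₀ (psi_abs _ _ _) (abs_nonneg _) (psi_abs _ _ _)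
        · simp
      · refine (psi_corr W (hq i hi) (hq j hj) (hc i hi j hj e) X).trans ?_
        rw [zero_add, sq]
        have a1 : (q i : ℝ) ≤ Q := by exact_mod_cast hQ i hi
        have a2 : (q j : ℝ) ≤ Q := by exact_mod_cast hQ j hj
        gcongr
    refine (Finset.sum_le_sum h4).trans (le_of_eq ?_)
    rw [Finset.sum_add_distrib, Finset.sum_ite_eq, if_pos hi]
    simp
  have h5 := h1.trans (h2.le.trans (Finset.sum_le_sum h3))
  simp only [sum_const, nsmul_eq_mul] at h5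
  have h6 : (W.card : ℝ) * (I.card : ℝ) ^ 2 ≤ I.card * X + (I.card : ℝ) ^ 2 * (Q : ℝ) ^ 2 := by
    linarith
  exact_mod_cast h6

end Vale.Agent.P012
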