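import Mathlib
import Vale.Agent.P012.Greedy
import Vale.Agent.P012.Var
import Vale.Agent.P012.Sieve
import Vale.Agent.P012.Digits

/-!
The main step: a tiny fraction with a rich denominator has a short expansion.
-/

namespace Vale.Agent.P012

open Finset Function Vale.Agent.P003

theorem Rep.scale {k w D B N : ℕ} (h : Rep k ((w : ℚ) / D)) (hB : 0 < B) (hN : N ∣ B) :
    Rep k (((N * w : ℕ) : ℚ) / (D * B : ℕ)) := by
  obtain ⟨c, rfl⟩ := hN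
  have hN0 : 0 < N := Nat.pos_of_ne_zero fun e => by simp [e] at hB
  have hc : 0 < c := Nat.pos_of_ne_zero fun e => by simp [e] at hB
  have := h.div hc
  have e : (w : ℚ) / D / c = ((N * w : ℕ) : ℚ) / (D * (N * c) : ℕ) := by
    push_cast
    have : (N : ℚ) ≠ 0 := by positivity
    rw [div_div, show (D : ℚ) * (N * c) = N * (D * c) by ring, mul_div_mul_left _ _ this]
  rwa [e] at this

theorem big_set {B H L Λ D k : ℕ} (hH : 0 < H) (hHL : H ≤ L ^ 2) (hd : Dense H B) (hD0 : 0 < D)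
    (hDΛ : D ≤ Λ) (W0 : Finset ℕ) (hW : ∀ w ∈ W0, 1 ≤ w ∧ w ≤ D ∧ Rep k ((w : ℚ) / D))
    (hB : 8 * Λ ^ 2 * L ^ 2 ≤ B) :
    ∃ W : Finset ℕ, W.card = W0.card ^ 3 ∧ W ⊆ range (16 * Λ ^ 3 * L ^ 4) ∧
      ∀ w ∈ W, 1 ≤ w ∧ Rep (3 * k) ((w : ℚ) / (D * B : ℕ)) := by
  have hΛ : 1 ≤ Λ := le_trans hD0 hDΛ
  have hL2 : 1 ≤ L ^ 2 := le_trans hH hHL
  have hΛ2 : Λ ≤ Λ ^ 2 := by nlinarith
  have hy : 2 * Λ ≤ 8 * Λ ^ 2 * L ^ 2 := by nlinarith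
  have hB0 : 0 < B := by omega
  obtain ⟨N1, a1, a2, a3⟩ := hd.exists_dvd hH (y := 2 * Λ) (by omega) (by omega)
  obtain ⟨N2, b1, b2, b3⟩ := hd.exists_dvd hH (y := 8 * Λ ^ 2 * L ^ 2) (by omega) hB
  have a4 : N1 ≤ L ^ 2 * (2 * Λ) := a3.trans (Nat.mul_le_mul_right _ hHL)
  have b4 : N2 ≤ L ^ 2 * (8 * Λ ^ 2 * L ^ 2) := b3.trans (Nat.mul_le_mul_right _ hHL)
  have c1 : ∀ w ∈ comb W0 N1 W0, 1 ≤ w ∧ w ≤ 4 * Λ ^ 2 * L ^ 2 ∧
      Rep (k + k) ((w : ℚ) / (D * B : ℕ)) := by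
    intro w hw
    obtain ⟨s, hs, s', hs', rfl⟩ := mem_comb.1 hw
    obtain ⟨e1, e2, e3⟩ := hW s hs
    obtain ⟨f1, f2, f3⟩ := hW s' hs'
    refine ⟨by omega, ?_, ?_⟩
    · have g1 : N1 * s' ≤ L ^ 2 * (2 * Λ) * Λ := Nat.mul_le_mul a4 (f2.trans hDΛ)
      nlinarith
    · have := (e3.scale hB0 (one_dvd B)).add (f3.scale hB0 a1)
      rw [← add_div, ← Nat.cast_add, one_mul] at this
      exact this
  refine ⟨comb (comb W0 N1 W0) N2 W0, ?_, ?_, ?_⟩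
  · have g3 : 0 < Λ ^ 2 * L ^ 2 := by positivity
    rw [card_comb' (by omega) fun s hs => by have := (c1 s hs).2.1; nlinarith,
      card_comb' (by omega) fun s hs => by have := (hW s hs).2.1; omega]
    ring
  · intro w hw
    obtain ⟨s, hs, s', hs', rfl⟩ := mem_comb.1 hw
    have e1 := (c1 s hs).2.1
    have g1 : N2 * s' ≤ L ^ 2 * (8 * Λ ^ 2 * L ^ 2) * Λ :=
      Nat.mul_le_mul b4 ((hW s' hs').2.1.trans hDΛ)
    have g2 : Λ ^ 2 * L ^ 2 * 1 ≤ Λ ^ 2 * L ^ 2 * (Λ * L ^ 2) :=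
      Nat.mul_le_mul_left _ (Nat.mul_pos hΛ hL2)
    have g3 : 0 < Λ ^ 2 * L ^ 2 := by positivity
    rw [mem_range]
    nlinarith
  · intro w hw
    obtain ⟨s, hs, s', hs', rfl⟩ := mem_comb.1 hw
    obtain ⟨e1, e2, e3⟩ := c1 s hs
    refine ⟨by omega, ?_⟩
    have := e3.add ((hW s' hs').2.2.scale hB0 b1)
    rw [← add_div, ← Nat.cast_add, show k + k + k = 3 * k by ring] at this
    exact this

theorem numeric {L Λ T n c : ℕ} (hL : 64 ≤ L) (hc : Λ ≤ L ^ 5 * c) (hn : L ^ 20 ≤ n)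
    (hT : 2 * L ^ 17 * T ^ 2 < Λ)
    (h : c ^ 3 * n ^ 2 ≤ n * (16 * Λ ^ 3 * L ^ 4) + n ^ 2 * (L * Λ * T) ^ 2) : False := by
  have hn0 : 0 < n := lt_of_lt_of_le (by positivity) hn
  have hΛ : 0 < Λ := by omega
  have h1 : c ^ 3 * n ≤ 16 * Λ ^ 3 * L ^ 4 + n * (L * Λ * T) ^ 2 :=
    Nat.le_of_mul_le_mul_left (by nlinarith) hn0
  have h2 : Λ ^ 3 ≤ L ^ 15 * c ^ 3 := by
    have := Nat.pow_le_pow_left hc 3
    rwa [mul_pow, ← pow_mul] at this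
  have h3 : Λ ^ 3 * n ≤ 16 * Λ ^ 3 * L ^ 19 + n * Λ ^ 2 * (L ^ 17 * T ^ 2) := by
    calc Λ ^ 3 * n ≤ L ^ 15 * c ^ 3 * n := Nat.mul_le_mul_right _ h2
      _ = L ^ 15 * (c ^ 3 * n) := by ring
      _ ≤ L ^ 15 * (16 * Λ ^ 3 * L ^ 4 + n * (L * Λ * T) ^ 2) := Nat.mul_le_mul_left _ h1
      _ = _ := by ring
  have h4 : n * Λ ^ 2 * (2 * L ^ 17 * T ^ 2) < n * Λ ^ 2 * Λ :=
    Nat.mul_lt_mul_of_pos_left hT (by positivity)
  have h5 : 64 * L ^ 19 ≤ n := by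
    refine le_trans ?_ hn
    rw [pow_succ' L 19]
    exact Nat.mul_le_mul_right _ hL
  have h6 := Nat.mul_le_mul_left (Λ ^ 3) h5
  nlinarith

theorem core {a B H L Λ T D k : ℕ} (ha1 : 1 ≤ a) (haL : a ≤ L) (hc : Nat.Coprime a B)
    (hH : 0 < H) (hHL : H ≤ L ^ 2) (hd : Dense H B) (hD0 : 0 < D) (hDB : Nat.Coprime D B)
    (hDΛ : D ≤ Λ) (W0 : Finset ℕ) (hW : ∀ w ∈ W0, 1 ≤ w ∧ w ≤ D ∧ Rep k ((w : ℚ) / D))
    (hcard : Λ ≤ L ^ 5 * W0.card) (hB : 8 * Λ ^ 2 * L ^ 2 ≤ B)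
    (hs : ∀ α β : ℕ, Nat.Coprime α β → ∃ I : Finset ℕ, I ⊆ range T ∧ L ^ 20 ≤ I.card ∧
      ∀ i ∈ I, ∀ j ∈ I, i ≠ j → Nat.Coprime (α * i + β) (α * j + β))
    (hT : 2 * L ^ 17 * T ^ 2 < Λ) (hL : 64 ≤ L) : Rep (6 * k + 1) ((a : ℚ) / B) := by
  obtain ⟨W, w1, w2, w3⟩ := big_set hH hHL hd hD0 hDΛ W0 hW hB
  have hΛ0 : 0 < Λ := by omega
  have hB0 : 0 < B := lt_of_lt_of_le (by positivity) hB
  obtain ⟨α, hα⟩ : ∃ α, α = a * D := ⟨_, rfl⟩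
  have hα0 : 0 < α := by rw [hα]; positivity
  have hαB : Nat.Coprime α B := by rw [hα]; exact Nat.Coprime.mul_left hc hDB
  obtain ⟨m0, β, hβ1, hβ2, hβ3⟩ : ∃ m0 β : ℕ, 1 ≤ β ∧ β ≤ α ∧ β + B = α * (m0 + 1) := by
    have := Nat.div_add_mod B α
    have := Nat.mod_lt B hα0
    exact ⟨B / α, α - B % α, by omega, by omega, by rw [mul_add]; omega⟩
  have hαβ : Nat.Coprime α β := by
    refine Nat.coprime_of_dvd fun p hp d1 d2 => ?_
    have d3 : p ∣ β + B := by rw [hβ3]; exact d1.mul_right _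
    exact hp.one_lt.ne' (Nat.eq_one_of_dvd_coprimes hαB d1 ((Nat.dvd_add_iff_right d2).2 d3))
  obtain ⟨I, i1, i2, i3⟩ := hs α β hαβ
  obtain ⟨i, w, hw, w', hw', n, hn⟩ : ∃ i, ∃ w ∈ W, ∃ w' ∈ W, α * i + β ∣ w + w' := by
    by_contra hcon
    push Not at hcon
    have hv := variance W I (fun i => α * i + β) _ (L * Λ * T) w2 (fun i _ => by omega)
      (fun i hi => by
        have e1 : i + 1 ≤ T := mem_range.1 (i1 hi)
        calc α * i + β ≤ α * (i + 1) := by rw [mul_add]; omega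
          _ ≤ L * Λ * T := by rw [hα]; gcongr) i3 fun i _ => hcon i
    rw [w1] at hv
    exact numeric hL hcard i2 hT hv
  have hn0 : 0 < n := Nat.pos_of_ne_zero fun e => by
    have := (w3 w hw).1
    rw [e] at hn; omega
  have h1 := ((((w3 w hw).2.add (w3 w' hw').2).div
    (m := (m0 + 1 + i) * n) (by positivity)).add_unit (n := D * (m0 + 1 + i)) (by positivity))
  have e : ((w : ℚ) / (D * B : ℕ) + w' / (D * B : ℕ)) / ((m0 + 1 + i) * n : ℕ) +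
      1 / (D * (m0 + 1 + i) : ℕ) = (a : ℚ) / B := by
    have e1 : (w : ℚ) + w' = (a * D * (m0 + 1 + i) - B) * n := by
      have e2 : (w : ℚ) + w' = (α * i + β) * n := by exact_mod_cast hn
      have e3 : (β : ℚ) + B = α * (m0 + 1) := by exact_mod_cast hβ3
      have e4 : (α : ℚ) = a * D := by exact_mod_cast hα
      rw [e2, ← e4]
      linear_combination n * e3
    rw [← add_div, e1]
    push_cast
    have : (D : ℚ) ≠ 0 := by positivity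
    have : (B : ℚ) ≠ 0 := by positivity
    have : (n : ℚ) ≠ 0 := by positivity
    field_simp
    ring
  rw [e, show 3 * k + 3 * k + 1 = 6 * k + 1 by ring] at h1
  exact h1

end Vale.Agent.P012
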