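import Mathlib
import Vale.Agent.P012.Core

/-!
Choice of parameters.
-/

namespace Vale.Agent.P012

open Finset Function Vale.Agent.P003

theorem cube_le_two_pow (t : ℕ) (ht : 10 ≤ t) : t ^ 3 ≤ 2 ^ t := by
  induction t, ht using Nat.le_induction with
  | base => norm_num
  | succ n hn ih =>
    rw [pow_succ 2]
    have h1 : 10 * n ^ 2 ≤ n ^ 3 := by rw [pow_succ' n 2]; exact Nat.mul_le_mul_right _ hn
    nlinarith

theorem expo {t l ω c C κ r A : ℕ} (ht : 1 ≤ t) (hA : A * t ^ 2 ≤ l) (hω : ω = l / t)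
    (hC : C = 14 + 64 * κ) (hc : c = 4 * C + 13) (h1 : 6 * C ≤ A) (h2 : c + 4 ≤ A)
    (h3 : 2 ^ (c + 3) ≤ A) (h4 : 7 * r + 2 ≤ A) :
    t * ω ≤ l ∧ A ≤ l ∧ 33 ≤ l ∧ (2 * t + 1) * (2 * C * t) ≤ l ∧
    3 + 2 * (4 * l + (ω + 2 * t) * (2 * C * t)) + 2 * l ≤ l * 2 ^ c ∧
    2 + r * (t + 6) ≤ 12 * l ∧
    1 + 17 * l + 64 * κ * l < 4 * l + (ω + 2 * t) * (2 * C * t) ∧
    (l + 1) * (l * 2 ^ (c + 1)) * 2 + 4 * l * 2 < l ^ 4 ∧
    (l + 1) * (l * 2 ^ (c + 1)) * 2 + 4 * l * (4 * 2 ^ ω) < 2 ^ ω * l ^ 2 := by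
  have t2 : t ≤ t ^ 2 := by nlinarith
  have e1 : t * ω ≤ l := by rw [hω]; exact Nat.mul_div_le l t
  have e2 : A ≤ l := le_trans (by nlinarith) hA
  have e3 : 33 ≤ l := by omega
  have e4 : A ≤ ω := by
    rw [hω, Nat.le_div_iff_mul_le ht]
    exact le_trans (Nat.mul_le_mul_left _ t2) hA
  have e5 : l ≤ 2 * (t * ω) := by
    have a1 := Nat.div_add_mod l t
    have a2 := Nat.mod_lt l ht
    rw [← hω] at a1
    have : t * 1 ≤ t * ω := Nat.mul_le_mul_left _ (by omega)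
    omega
  have e6 : (2 * t + 1) * (2 * C * t) ≤ l := by
    refine le_trans ?_ hA
    calc (2 * t + 1) * (2 * C * t) ≤ (3 * t) * (2 * C * t) := Nat.mul_le_mul_right _ (by omega)
      _ = 6 * C * t ^ 2 := by ring
      _ ≤ _ := Nat.mul_le_mul_right _ h1
  have e7 : C * (t * ω) ≤ C * l := Nat.mul_le_mul_left _ e1
  have e8 : C * l ≤ C * (2 * (t * ω)) := Nat.mul_le_mul_left _ e5
  have e9 : (l + 1) * (l * 2 ^ (c + 1)) * 2 ≤ 2 ^ (c + 3) * l ^ 2 := by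
    calc (l + 1) * (l * 2 ^ (c + 1)) * 2 ≤ (2 * l) * (l * 2 ^ (c + 1)) * 2 := by gcongr; omega
      _ = _ := by ring
  refine ⟨e1, e2, e3, e6, ?_, ?_, ?_, ?_, ?_⟩
  · have : l * c ≤ l * 2 ^ c := Nat.mul_le_mul_left _ Nat.lt_two_pow_self.le
    rw [hc] at this ⊢
    nlinarith
  · have : r * (t + 6) ≤ r * (7 * t) := Nat.mul_le_mul_left _ (by omega)
    have : (7 * r + 2) * t ≤ A * t ^ 2 := Nat.mul_le_mul h4 t2
    nlinarith
  · have : 0 ≤ 2 * t * (2 * C * t) := Nat.zero_le _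
    subst hC
    nlinarith
  · have a1 : 2 ^ (c + 3) * l ^ 2 ≤ l * l ^ 2 := Nat.mul_le_mul_right _ (h3.trans e2)
    have a2 : 33 * l ^ 3 ≤ l ^ 4 := by rw [pow_succ' l 3]; exact Nat.mul_le_mul_right _ e3
    have a3 : l * 1 ≤ l * l ^ 2 := Nat.mul_le_mul_left _ (by nlinarith)
    nlinarith
  · have a1 : 2 * 2 ^ (c + 3) ≤ 2 ^ ω := by
      rw [← pow_succ']; exact Nat.pow_le_pow_right (by norm_num) (by omega)
    have a2 := Nat.mul_le_mul_right (l ^ 2) a1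
    have a3 : 2 ^ ω * l * 33 ≤ 2 ^ ω * l * l := Nat.mul_le_mul_left _ e3
    have a4 : 0 < 2 ^ ω * l := by positivity
    nlinarith

theorem aux1 {t c C : ℕ} (ht : 1 ≤ t) :
    t + c + 1 + (6 * (2 * C * t) + 1) ≤ (c + 3 + 12 * C) * t := by
  have := Nat.mul_le_mul_left c ht
  nlinarith

theorem aux2 {t l C : ℕ} (h : (2 * t + 1) * (2 * C * t) ≤ l) :
    4 * l + 2 * t * (2 * C * t) + 2 * C * t ≤ l * 5 := by nlinarith

theorem aux3 {t l ω : ℕ} (h : t * ω ≤ l) : t * (4 * ω) ≤ 4 * l := by nlinarith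

theorem aux4 {x l κ : ℕ} (h : 1 + 17 * l + 64 * κ * l < x) :
    l * 17 + 1 + l * 2 ^ 5 * (κ * 2) < x := by nlinarith

theorem aux5 {t l r : ℕ} (h : 2 + r * (t + 6) ≤ 12 * l) :
    2 + r * (t + 5 + 1) + l * 20 ≤ l * 2 ^ 5 := by nlinarith

theorem rep_lev : ∃ K t0 : ℕ, ∀ a b : ℕ, 1 ≤ a → a < b → t0 ≤ lev b →
    Rep (K * lev b) ((a : ℚ) / b) := by
  obtain ⟨r, κ, hs⟩ := coprime_values
  obtain ⟨n0, hn0⟩ := primorial_lower
  obtain ⟨C, hC⟩ : ∃ C, C = 14 + 64 * κ := ⟨_, rfl⟩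
  obtain ⟨c, hc⟩ : ∃ c, c = 4 * C + 13 := ⟨_, rfl⟩
  obtain ⟨A, hA1, hA2, hA3, hA4, hA5⟩ : ∃ A, 6 * C ≤ A ∧ c + 4 ≤ A ∧ 2 ^ (c + 3) ≤ A ∧
      7 * r + 2 ≤ A ∧ n0 ≤ A := by
    generalize 2 ^ (c + 3) = x
    exact ⟨6 * C + (c + 4) + x + (7 * r + 2) + n0, by omega, by omega, by omega, by omega,
      by omega⟩
  refine ⟨c + 3 + 12 * C, A + 10, fun a b ha hab ht => ?_⟩
  have hb : b ≤ Uk (lev b) := (lev_le_iff _ _).1 le_rfl
  generalize lev b = t at ht hb ⊢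
  obtain ⟨l, hl⟩ : ∃ l, l = 2 ^ t := ⟨_, rfl⟩
  have hAt : A * t ^ 2 ≤ l := by
    rw [hl]
    refine le_trans ?_ (cube_le_two_pow t (by omega))
    rw [pow_succ' t 2]
    exact Nat.mul_le_mul_right _ (by omega)
  obtain ⟨ω, hω⟩ : ∃ ω, ω = l / t := ⟨_, rfl⟩
  obtain ⟨p1, p2, p3, p4, p5, p6, p7, p8, p9⟩ := expo (by omega) hAt hω hC hc hA1 hA2 hA3 hA4
  rw [Uk, ← hl] at hb
  obtain ⟨a', B, g1, g2, g3, g4, g5, g6, g7⟩ := greedy_reduced ha hab (t + c)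
  have hB0 : 0 < B := lt_of_lt_of_le (by positivity) g6
  have hBle : B ^ 2 ≤ 2 ^ ((l + 1) * (l * 2 ^ (c + 1)) * 2) := by
    rw [pow_mul, pow_mul]
    refine Nat.pow_le_pow_left (g5.trans ?_) 2
    rw [add_assoc, pow_add 2 t, ← hl]
    refine Nat.pow_le_pow_left ?_ _
    have : 1 ≤ 2 ^ l := Nat.one_le_two_pow
    rw [pow_succ]; omega
  have hYω : (l ^ 4) ^ ω ≤ 2 ^ (4 * l) := by
    conv_lhs => rw [hl, ← pow_mul, ← pow_mul]
    exact Nat.pow_le_pow_right (by norm_num) (aux3 p1)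
  have hl1 : l ≤ l ^ 2 := Nat.le_self_pow (by norm_num) l
  have hZ : 2 ^ ω * l ^ 2 = 2 ^ (ω + 2 * t) := by rw [hl, ← pow_mul, ← pow_add, mul_comm t]
  obtain ⟨D, W0, d1, d2, d3, d4, d5⟩ := digits (B := B) (Y := l ^ 4) (Z := 2 ^ ω * l ^ 2) (ω := ω)
    (2 * C * t) hB0 (Nat.one_le_pow _ _ (by omega))
    (hn0 _ (le_trans (by omega) (Nat.le_self_pow (by norm_num) l)))
    (hn0 _ (le_trans (by omega : n0 ≤ l ^ 2) (Nat.le_mul_of_pos_left _ (by positivity))))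
    (lt_of_le_of_lt (Nat.mul_le_mul hBle (Nat.pow_le_pow_left hYω _))
      (by rw [← pow_mul, ← pow_add]; exact Nat.pow_lt_pow_right (by norm_num) p8))
    (lt_of_le_of_lt (Nat.mul_le_mul hBle (Nat.pow_le_pow_left hYω _))
      (by rw [← pow_mul, ← pow_add]; exact Nat.pow_lt_pow_right (by norm_num) p9))
  have hk : 1 ≤ 2 * C * t := Nat.mul_pos (by omega) (by omega)
  have key := core (L := 2 ^ l) (Λ := 2 ^ (4 * l + (ω + 2 * t) * (2 * C * t)))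
    (T := Uk (t + 5) ^ κ) (k := 2 * C * t) g1 (g2.trans hb) g3 (Nat.mul_pos (by omega) (by omega))
    (by rw [sq]; exact Nat.mul_le_mul hb hb) g4 d1 d2
    (d3.trans (by rw [hZ, pow_add 2 (4 * l), ← pow_mul 2]; exact Nat.mul_le_mul_right _ hYω))
    W0 (fun w hw => ⟨hk.trans (d5 w hw).1, (d5 w hw).2⟩) ?_ ?_ ?_ ?_ ?_
  · have h1 := g7.add key
    rw [sub_add_cancel] at h1
    exact h1.mono (aux1 (by omega))
  · calc 2 ^ (4 * l + (ω + 2 * t) * (2 * C * t))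
        = 2 ^ (4 * l + 2 * t * (2 * C * t)) * 2 ^ (ω * (2 * C * t)) := by
          rw [← pow_add]; congr 1; ring
      _ ≤ 2 ^ (4 * l + 2 * t * (2 * C * t)) * (2 ^ (2 * C * t) * W0.card) :=
          Nat.mul_le_mul_left _ d4
      _ ≤ _ := by
          rw [← mul_assoc, ← pow_add, ← pow_mul]
          exact Nat.mul_le_mul_right _ (Nat.pow_le_pow_right (by norm_num) (aux2 p4))
  · refine le_trans ?_ g6
    rw [show 8 = 2 ^ 3 by norm_num, ← pow_mul, ← pow_mul, ← pow_add, ← pow_add, pow_add 2 t, ← hl]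
    exact Nat.pow_le_pow_right (by norm_num) (by omega)
  · intro α β hαβ
    obtain ⟨I, i1, i2, i3⟩ := hs (t + 5) α β hαβ
    refine ⟨I, i1, Nat.le_of_mul_le_mul_left (c := 4 * 2 ^ (r * (t + 5 + 1))) (le_trans ?_ i2)
      (by positivity), i3⟩
    rw [Uk, pow_add 2 t, ← hl, show 4 = 2 ^ 2 by norm_num, ← pow_mul, ← pow_add, ← pow_add]
    exact Nat.pow_le_pow_right (by norm_num) (aux5 p6)
  · rw [Uk, pow_add 2 t, ← hl, ← pow_mul, ← pow_mul, ← pow_mul, ← pow_succ', ← pow_add]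
    exact Nat.pow_lt_pow_right (by norm_num) (aux4 p7)
  · exact le_trans (by norm_num) (Nat.pow_le_pow_right (by norm_num) (by omega : 6 ≤ l))

theorem lev_le_loglog {b : ℕ} (h : 4 ≤ lev b) : (lev b : ℝ) ≤ 4 * Real.log (Real.log b) := by
  obtain ⟨s, hs⟩ : ∃ s, lev b = s + 2 := ⟨lev b - 2, by omega⟩
  have h1 : ¬ b ≤ Uk (s + 1) := by rw [← lev_le_iff]; omega
  have h2 : Real.log (Uk (s + 1)) ≤ Real.log b :=
    Real.log_le_log (by exact_mod_cast (by have := two_le_Uk (s + 1); omega))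
      (by exact_mod_cast (not_le.1 h1).le)
  rw [log_Uk, pow_succ] at h2
  have hl := Real.log_two_gt_d9
  have h3 : (2 : ℝ) ^ s ≤ Real.log b := by
    have : (0 : ℝ) < 2 ^ s := by positivity
    nlinarith
  have h4 := Real.log_le_log (by positivity) h3
  rw [Real.log_pow] at h4
  have h5 : (2 : ℝ) ≤ s := by exact_mod_cast (by omega : 2 ≤ s)
  rw [hs]; push_cast
  nlinarith

theorem main : ∃ C : ℝ, ∃ b₀ : ℕ, ∀ b ≥ b₀, ∀ a : ℕ, 1 ≤ a → a < b →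
    ∃ S : Finset ℕ, (∀ n ∈ S, 2 ≤ n) ∧ ∑ n ∈ S, (1 : ℚ) / n = (a : ℚ) / b ∧
      (S.card : ℝ) ≤ C * Real.log (Real.log b) := by
  obtain ⟨K, t0, h⟩ := rep_lev
  refine ⟨4 * K, Uk (t0 + 4) + 1, fun b hb a ha hab => ?_⟩
  have h1 : ¬ lev b ≤ t0 + 4 := by rw [lev_le_iff]; omega
  have hbq : (0 : ℚ) < b := by exact_mod_cast (by omega : 0 < b)
  obtain ⟨S, s1, s2, s3⟩ := (h a b ha hab (by omega)).distinct'
    (by rw [div_lt_one hbq]; exact_mod_cast hab)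
  refine ⟨S, s2, s3, ?_⟩
  have h2 : (S.card : ℝ) ≤ K * lev b := by exact_mod_cast s1
  have h3 := mul_le_mul_of_nonneg_left (lev_le_loglog (b := b) (by omega))
    (Nat.cast_nonneg (α := ℝ) K)
  linarith

end Vale.Agent.P012
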